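import Vale.Agent.P307.Defs
import Mathlib.Combinatorics.SimpleGraph.Paths

universe u

namespace Vale.Agent.P307.Gr

open FirstOrder Cardinal

/-- The Gaifman graph of an `L`-structure: two distinct elements are adjacent when they occur
together in a tuple satisfying some relation symbol of `L`. -/
def gaifman (L : Language.{u, u}) (M : Type u) [L.Structure M] : SimpleGraph M where
  Adj x y := x ≠ y ∧ ∃ (n : ℕ) (R : L.Relations n) (v : Fin n → M),
    Language.Structure.RelMap R v ∧ x ∈ Set.range v ∧ y ∈ Set.range v
  symm := ⟨fun _ _ ⟨h, n, R, v, h1, h2, h3⟩ => ⟨h.symm, n, R, v, h1, h3, h2⟩⟩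
  loopless := ⟨fun _ h => h.1 rfl⟩

/-- The graph `G` contains a subdivision of the complete graph on `κ` vertices: there are a set `B`
of `κ` branch vertices and, for all distinct `a, b` in `B`, a path from `a` to `b`, such that these
paths meet `B` only in their ends and the paths of two different pairs meet only inside `B`. -/
def HasCompleteSubdivision {V : Type u} (G : SimpleGraph V) (κ : Cardinal.{u}) : Prop :=
  ∃ (B : Set V) (p : ∀ a b : B, G.Walk a.1 b.1), #B = κ ∧
    (∀ a b : B, a ≠ b → (p a b).IsPath ∧ ∀ x ∈ (p a b).support, x ∈ B → x = a.1 ∨ x = b.1) ∧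
    ∀ a b c d : B, a ≠ b → c ≠ d → s(a, b) ≠ s(c, d) →
      ∀ x ∈ (p a b).support, x ∈ (p c d).support → x ∈ B

end Vale.Agent.P307.Gr
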